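import Vale.Agent.P089GR.Gen
import Vale.Agent.P089G45.Path
import Mathlib.RingTheory.TwoSidedIdeal.Basic

/-! The index class of a cycle, in the `K_0`-group of the unitized stabilization. -/

set_option linter.unusedSectionVars false

namespace Vale.Agent.P089GR

open scoped InnerProductSpace ZeroAtInfty
open Vale.Agent.P089G Vale.Agent.P089Z Vale.Agent.P089 Vale.Agent.P089.Asm Vale.Agent.P089.Ind
  Vale.Agent.P089G45

section Base

variable (G : Type) [Group G]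

/-- The group ring of the operators on `ℓ²(ℕ)`. -/
abbrev MM : Type := MonoidAlgebra OpN G

/-- The ideal of the elements with compact coefficients. -/
noncomputable def cI : TwoSidedIdeal (MM G) :=
  TwoSidedIdeal.mk' {a | P089Z.Ideal a} ⟨fun _ => Cp.zero⟩
    (fun ha hb => ⟨fun s => (ha.cp s).add (hb.cp s)⟩) (fun ha => P089Z.Ideal.neg ha)
    (fun hb => P089Z.Ideal.mul_left _ hb) (fun ha => P089Z.Ideal.mul_right ha _)

/-- The quotient ring. -/
abbrev QQ : Type := (cI G).ringCon.Quotient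

variable {G}

theorem rep_mem {B : Type} [Ring B] (φ : B →ₙ+* OpN) {a : MonoidAlgebra B G}
    (ha : ∀ s, Cp (φ (a.coeff s))) : rep φ a ∈ UU G :=
  roeU_le_UU (roeB_rep φ a ha).mem_roeU

theorem q_eq_zero_iff' (a : MM G) : (cI G).ringCon.mk' a = 0 ↔ P089Z.Ideal a := by
  have h : a ∈ cI G ↔ P089Z.Ideal a := TwoSidedIdeal.mem_mk' _ _ _ _ _ _ _
  rw [← h, TwoSidedIdeal.mem_iff, ← map_zero (cI G).ringCon.mk']
  exact RingCon.eq _

open Classical in
/-- The representation of the ideal. -/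
noncomputable def jj (a : MM G) : UU G :=
  if h : P089Z.Ideal a then ⟨rep (NonUnitalRingHom.id OpN) a, rep_mem _ h.cp⟩ else 0

theorem jj_val {a : MM G} (h : P089Z.Ideal a) :
    (jj a).1 = rep (NonUnitalRingHom.id OpN) a := by
  rw [jj, dif_pos h]

theorem rep_smul (c : ℂ) (a : MM G) :
    rep (NonUnitalRingHom.id OpN) (c • a) = c • rep (NonUnitalRingHom.id OpN) a :=
  bl_ext fun g h => by
    rw [bl_smul, bl_rep, bl_rep]
    rfl

variable (G) in
/-- The ideal and its representation. -/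
noncomputable def RR : Rel (MM G) (QQ G) (UU G) where
  q := (cI G).ringCon.mk'
  j := jj
  j_add a b ha hb := by
    have hab : P089Z.Ideal (a + b) := (q_eq_zero_iff' _).1 (by rw [map_add, ha, hb, add_zero])
    refine Subtype.ext ?_
    rw [Subalgebra.coe_add, jj_val hab, jj_val ((q_eq_zero_iff' a).1 ha),
      jj_val ((q_eq_zero_iff' b).1 hb), map_add]
  j_mul a b ha hb := by
    have hab : P089Z.Ideal (a * b) := (q_eq_zero_iff' _).1 (by rw [map_mul, ha, zero_mul])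
    refine Subtype.ext ?_
    rw [Subalgebra.coe_mul, jj_val hab, jj_val ((q_eq_zero_iff' a).1 ha),
      jj_val ((q_eq_zero_iff' b).1 hb), map_mul]
  j_smul c a ha := by
    have hab : P089Z.Ideal (c • a) := (q_eq_zero_iff' _).1
      (by rw [Algebra.smul_def, map_mul, ha, mul_zero])
    refine Subtype.ext ?_
    rw [Subalgebra.coe_smul, jj_val hab, jj_val ((q_eq_zero_iff' a).1 ha), rep_smul]

theorem q_eq_zero_iff (a : MM G) : (RR G).q a = 0 ↔ P089Z.Ideal a := q_eq_zero_iff' a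

theorem q_eq_iff (a b : MM G) : (RR G).q a = (RR G).q b ↔ P089Z.Ideal (a - b) := by
  rw [← q_eq_zero_iff, map_sub, sub_eq_zero]

theorem j_val {a : MM G} (h : P089Z.Ideal a) :
    ((RR G).j a).1 = rep (NonUnitalRingHom.id OpN) a := jj_val h

theorem adm_hcont {T : Type} [TopologicalSpace T] (γ : T → MM G) (hγ : γ ∈ Adm G T)
    (h : ∀ t, (RR G).q (γ t) = 0) : Continuous fun t => (RR G).j (γ t) := by
  refine continuous_induced_rng.2 ?_
  have h1 : (Subtype.val ∘ fun t => (RR G).j (γ t)) =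
      fun t => rep (NonUnitalRingHom.id OpN) (γ t) :=
    funext fun t => j_val ((q_eq_zero_iff _).1 (h t))
  rw [h1]
  exact adm_cont hγ

/-- Homotopy invariance along admissible paths. -/
theorem ind_adm {T : Type} [TopologicalSpace T] [PreconnectedSpace T] (d : T → IDat (RR G))
    (h₀ : (fun t => (d t).p₀) ∈ Adm G T) (h₁ : (fun t => (d t).p₁) ∈ Adm G T)
    (hT : (fun t => (d t).T) ∈ Adm G T) (hS : (fun t => (d t).S) ∈ Adm G T) (s t : T) :
    (d s).ind = (d t).ind :=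
  IDat.ind_path (Adm G T) adm_const adm_hcont d h₀ h₁ hT hS s t

end Base

section Dat

variable {G X H : Type} [Group G] [TopologicalSpace X] [MulAction G X]
  [ContinuousConstSMul G X] [NormedAddCommGroup H] [InnerProductSpace ℂ H] [CompleteSpace H]

theorem ideal_mp (φ : (H →L[ℂ] H) →ₙ+* OpN) (hφ : ∀ T, Cp T → Cp (φ T))
    {a : MonoidAlgebra (H →L[ℂ] H) G} (ha : P089Z.Ideal a) : P089Z.Ideal (mp φ a) :=
  ⟨fun s => hφ _ (ha.cp s)⟩

theorem q_mp (φ : (H →L[ℂ] H) →ₙ+* OpN) (hφ : ∀ T, Cp T → Cp (φ T))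
    {a b : MonoidAlgebra (H →L[ℂ] H) G} (h : P089Z.Ideal (a - b)) :
    (RR G).q (mp φ a) = (RR G).q (mp φ b) := by
  rw [q_eq_iff, ← map_sub]
  exact ideal_mp φ hφ h

variable (Z : Cycle G X H) {w : C₀(X, ℂ)} (hw : IsCutoff G X w)
  (hfin : {s : G | w * shift s w ≠ 0}.Finite)

include hw hfin

theorem p0_idem : p0 Z w * p0 Z w = p0 Z w :=
  mul_idem (Z.proj_idem hw hfin) (single_idem Z.e₀_idem) (Z.comm₀ hfin)

theorem p1_idem : p1 Z w * p1 Z w = p1 Z w :=
  mul_idem (Z.proj_idem hw hfin) (single_idem Z.e₁_idem) (Z.comm₁ hfin)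

theorem ideal_ST : P089Z.Ideal (p0 Z w - opS Z w * opT Z w) :=
  defect_ideal (Z.proj_idem hw hfin) (single_idem Z.e₀_idem)
    (single_idem Z.e₁_idem) (Z.comm₀ hfin) (Z.comm₁ hfin) (single_tw Z.F_e₀)
    (Z.ideal_comm hfin) (Z.ideal_sq hfin)

theorem ideal_TS : P089Z.Ideal (p1 Z w - opT Z w * opS Z w) :=
  defect_ideal (Z.proj_idem hw hfin) (single_idem Z.e₁_idem)
    (single_idem Z.e₀_idem) (Z.comm₁ hfin) (Z.comm₀ hfin) (single_tw Z.F_e₁)
    (Z.ideal_comm hfin) (Z.ideal_sq hfin)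

theorem opT_p0 : opT Z w * p0 Z w = opT Z w := by rw [opT, mul_assoc, p0_idem Z hw hfin]

theorem p1_opT : p1 Z w * opT Z w = opT Z w := by
  rw [opT, ← mul_assoc, ← mul_assoc, p1_idem Z hw hfin]

theorem p0_opS : p0 Z w * opS Z w = opS Z w := by
  rw [opS, ← mul_assoc, ← mul_assoc, p0_idem Z hw hfin]

theorem opS_p1 : opS Z w * p1 Z w = opS Z w := by rw [opS, mul_assoc, p1_idem Z hw hfin]

/-- The index datum of a cycle. -/
noncomputable def dat (φ : (H →L[ℂ] H) →ₙ+* OpN) (hφ : ∀ T, Cp T → Cp (φ T)) : IDat (RR G) where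
  p₀ := mp φ (p0 Z w)
  p₁ := mp φ (p1 Z w)
  T := mp φ (opT Z w)
  S := mp φ (opS Z w)
  h₀ := by rw [← map_mul, p0_idem Z hw hfin]
  h₁ := by rw [← map_mul, p1_idem Z hw hfin]
  T₀ := by rw [← map_mul, opT_p0 Z hw hfin]
  T₁ := by rw [← map_mul, p1_opT Z hw hfin]
  S₀ := by rw [← map_mul, p0_opS Z hw hfin]
  S₁ := by rw [← map_mul, opS_p1 Z hw hfin]
  ST := by rw [← map_mul, q_mp φ hφ (ideal_ST Z hw hfin)]
  TS := by rw [← map_mul, q_mp φ hφ (ideal_TS Z hw hfin)]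

theorem dat_p₀ (φ : (H →L[ℂ] H) →ₙ+* OpN) (hφ : ∀ T, Cp T → Cp (φ T)) :
    (dat Z hw hfin φ hφ).p₀ = mp φ (p0 Z w) := rfl

theorem dat_p₁ (φ : (H →L[ℂ] H) →ₙ+* OpN) (hφ : ∀ T, Cp T → Cp (φ T)) :
    (dat Z hw hfin φ hφ).p₁ = mp φ (p1 Z w) := rfl

theorem dat_T (φ : (H →L[ℂ] H) →ₙ+* OpN) (hφ : ∀ T, Cp T → Cp (φ T)) :
    (dat Z hw hfin φ hφ).T = mp φ (opT Z w) := rfl

theorem dat_S (φ : (H →L[ℂ] H) →ₙ+* OpN) (hφ : ∀ T, Cp T → Cp (φ T)) :
    (dat Z hw hfin φ hφ).S = mp φ (opS Z w) := rfl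

omit hw hfin in
theorem indexMat_mp {A B : Type} [Ring A] [Ring B] (φ : A →ₙ+* B) (a b c d : A) (i k : Fin 2) :
    indexMat (φ a) (φ b) (φ c) (φ d) i k = φ (indexMat a b c d i k) := by
  fin_cases i <;> fin_cases k
  · change (φ a - φ d * φ c) ^ 2 = φ ((a - d * c) ^ 2)
    rw [sq, sq, map_mul, map_sub, map_mul]
  · change (φ a - φ d * φ c) * (φ a + (φ a - φ d * φ c)) * φ d =
      φ ((a - d * c) * (a + (a - d * c)) * d)
    rw [map_mul, map_mul, map_add, map_sub, map_mul]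
  · change φ c * (φ a - φ d * φ c) = φ (c * (a - d * c))
    rw [map_mul, map_sub, map_mul]
  · change -(φ b - φ c * φ d) ^ 2 = φ (-(b - c * d) ^ 2)
    rw [sq, sq, map_neg, map_mul, map_sub, map_mul]

/-- The index class of the datum of a cycle is the class of the index matrix. -/
theorem ind_dat (φ : (H →L[ℂ] H) →ₙ+* OpN) (hφ : ∀ T, Cp T → Cp (φ T))
    (A : Matrix (Fin 2) (Fin 2) (UU G)) (hA : ∀ i k, (A i k).1 = rep φ (Z.index (Z.proj w) i k)) :
    ∃ h : addDiag A * addDiag A = addDiag A, (dat Z hw hfin φ hφ).ind =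
      KZero.cls (addDiag A) h - KZero.cls (diag01 (UU G)) (diag01_idem (UU G)) := by
  refine ind_eq_cls _ A fun i k => Subtype.ext ?_
  have h0 : Z.index (Z.proj w) = indexMat (p0 Z w) (p1 Z w) (opT Z w) (opS Z w) := by
    unfold Cycle.index opT opS p0 p1
    rfl
  have h1 : indexMat (dat Z hw hfin φ hφ).p₀ (dat Z hw hfin φ hφ).p₁ (dat Z hw hfin φ hφ).T
      (dat Z hw hfin φ hφ).S i k = mp φ (Z.index (Z.proj w) i k) := by
    rw [h0, ← indexMat_mp, dat_p₀, dat_p₁, dat_T, dat_S]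
  rw [h1, j_val (ideal_mp φ hφ (Z.index_ideal hw hfin i k)), rep_mp, hA]

theorem idx_mem (φ : (H →L[ℂ] H) →ₙ+* OpN) (hφ : ∀ T, Cp T → Cp (φ T)) (i k : Fin 2) :
    rep φ (Z.index (Z.proj w) i k) ∈ UU G := by
  have h := Z.index_ideal hw hfin i k
  generalize Z.index (Z.proj w) i k = a at h
  exact rep_mem φ fun s => hφ _ (h.cp s)

/-- The index matrix over `UU G`. -/
noncomputable def idxU (φ : (H →L[ℂ] H) →ₙ+* OpN) (hφ : ∀ T, Cp T → Cp (φ T)) :
    Matrix (Fin 2) (Fin 2) (UU G) :=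
  Matrix.of fun i k => ⟨rep φ (Z.index (Z.proj w) i k), idx_mem Z hw hfin φ hφ i k⟩

theorem idxU_val (φ : (H →L[ℂ] H) →ₙ+* OpN) (hφ : ∀ T, Cp T → Cp (φ T)) (i k : Fin 2) :
    (idxU Z hw hfin φ hφ i k).1 = rep φ (Z.index (Z.proj w) i k) := rfl

end Dat

end Vale.Agent.P089GR
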