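import Vale.Agent.P089GR.Ind

/-! The index class of an abstract datum is the class of the index idempotent. -/

set_option linter.unusedSectionVars false
set_option linter.unusedSimpArgs false

namespace Vale.Agent.P089GR

open Matrix Vale.Agent.P089G Vale.Agent.P089Z

variable {M Q B : Type} [Ring M] [Algebra ℂ M] [Ring Q] [NormedRing B] [NormedAlgebra ℂ B]
  [CompleteSpace B] {R : Rel M Q B}

theorem del_orth {ι : Type} [Fintype ι] [DecidableEq ι] (x y : IPair R ι) (n : Matrix ι ι M)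
    (hn : n * n = n) (h1 : x.e * n = 0) (h2 : n * x.e = 0) (h3 : x.f * n = 0) (h4 : n * x.f = 0)
    (he : y.e = x.e + n) (hf : y.f = x.f + n) : y.del = x.del := by
  let z : IPair R ι := ⟨n, n, hn, hn, rfl⟩
  have h5 : y.del = (x.sum z).del := by
    refine IPair.del_mvn y (x.sum z) (fromCols x.e n) (fromCols x.f n) (fromRows x.e n)
      (fromRows x.f n) ?_ ?_ ?_ ?_ ?_ ?_
    · rw [fromCols_mul_fromRows, x.he, hn, he]
    · rw [fromRows_mul_fromCols, x.he, hn, h1, h2]
      rfl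
    · rw [fromCols_mul_fromRows, x.hf, hn, hf]
    · rw [fromRows_mul_fromCols, x.hf, hn, h3, h4]
      rfl
    · ext i k
      rcases k with k | k
      · exact congrFun (congrFun x.h i) k
      · rfl
    · ext i k
      rcases i with i | i
      · exact congrFun (congrFun x.h i) k
      · rfl
  rw [h5, IPair.del_sum, z.del_self rfl, add_zero]

theorem diag01_idem (C : Type) [Ring C] : diag01 C * diag01 C = diag01 C := by
  ext i k
  fin_cases i <;> fin_cases k <;> simp [diag01, Matrix.mul_apply, Fin.sum_univ_two]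

theorem diag01_map {C D : Type} [Ring C] [Ring D] (φ : C →+* D) :
    (diag01 C).map φ = diag01 D := by
  ext i k
  fin_cases i <;> fin_cases k <;> simp [diag01]

theorem q_s₀ (d : IDat R) : R.q (d.p₀ - d.S * d.T) = 0 := by rw [map_sub, d.ST, sub_self]

theorem q_s₁ (d : IDat R) : R.q (d.p₁ - d.T * d.S) = 0 := by rw [map_sub, d.TS, sub_self]

theorem q_indexMat (d : IDat R) (i k : Fin 2) : R.q (indexMat d.p₀ d.p₁ d.T d.S i k) = 0 := by
  fin_cases i <;> fin_cases k
  · change R.q (_ ^ 2) = 0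
    rw [sq, map_mul, q_s₀, zero_mul]
  · change R.q (_ * _ * _) = 0
    rw [map_mul, map_mul, q_s₀, zero_mul, zero_mul]
  · change R.q (_ * _) = 0
    rw [map_mul, q_s₀, mul_zero]
  · change R.q (-_ ^ 2) = 0
    rw [map_neg, sq, map_mul, q_s₁, zero_mul, neg_zero]

theorem idx_idem (d : IDat R) : addDiag (indexMat d.p₀ d.p₁ d.T d.S) *
    addDiag (indexMat d.p₀ d.p₁ d.T d.S) = addDiag (indexMat d.p₀ d.p₁ d.T d.S) := by
  have h : addDiag (indexMat d.p₀ d.p₁ d.T d.S) = indexIdem d.p₀ d.p₁ d.T d.S :=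
    indexMat_add _ _ _ _
  rw [h]
  exact indexIdem_idem d.h₀ d.h₁ d.T₀ d.T₁ d.S₀ d.S₁

theorem idx_q (d : IDat R) :
    (addDiag (indexMat d.p₀ d.p₁ d.T d.S)).map R.q = (diag01 M).map R.q := by
  ext i k
  change R.q (indexMat d.p₀ d.p₁ d.T d.S i k + diag01 M i k) = R.q (diag01 M i k)
  rw [map_add, q_indexMat, zero_add]

/-- The pair (index idempotent, `diag(0,1)`). -/
def idxPair (d : IDat R) : IPair R (Fin 2) :=
  ⟨addDiag (indexMat d.p₀ d.p₁ d.T d.S), diag01 M, idx_idem d, diag01_idem M, idx_q d⟩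

theorem ind_eq_idxPair (d : IDat R) : d.ind = (idxPair d).del := by
  obtain ⟨a, ha⟩ : ∃ a, a = d.p₀ - d.S * d.T := ⟨_, rfl⟩
  obtain ⟨b, hb⟩ : ∃ b, b = d.p₁ - d.T * d.S := ⟨_, rfl⟩
  have qa : R.q a = 0 := ha ▸ q_s₀ d
  have qb : R.q b = 0 := hb ▸ q_s₁ d
  have hST : d.S * d.T = d.p₀ - a := by rw [ha, sub_sub_cancel]
  have hTS : d.T * d.S = d.p₁ - b := by rw [hb, sub_sub_cancel]
  have e1 : d.T * a = b * d.T := by rw [ha, hb, mul_sub, sub_mul, d.T₀, d.T₁, mul_assoc]
  have e3 : d.p₀ * a = a := by rw [ha, mul_sub, d.h₀, ← mul_assoc, d.S₀]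
  have e4 : a * d.p₀ = a := by rw [ha, sub_mul, d.h₀, mul_assoc, d.T₀]
  have e6 : b * d.p₁ = b := by rw [hb, sub_mul, d.h₁, mul_assoc, d.S₁]
  have yx : ![a, (d.p₀ + a) * d.S] ⬝ᵥ ![a, d.T] = d.p₀ := by
    simp only [dotProduct, Fin.sum_univ_two, cons_val_zero, cons_val_one]
    rw [mul_assoc, hST, add_mul, mul_sub, mul_sub, d.h₀, e3, e4]
    abel
  have ba : ![0, d.p₁] ⬝ᵥ ![0, d.p₁] = d.p₁ := by
    simp only [dotProduct, Fin.sum_univ_two, cons_val_zero, cons_val_one, mul_zero, zero_add, d.h₁]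
  have t11 : d.T * ((d.p₀ + a) * d.S) = d.p₁ - b ^ 2 := by
    rw [← mul_assoc, mul_add, d.T₀, e1, add_mul, mul_assoc, hTS, mul_sub, e6, sq]
    abel
  have S0 : d.S * (1 - d.p₁) = 0 := by rw [mul_sub, mul_one, d.S₁, sub_self]
  have T0 : (1 - d.p₁) * d.T = 0 := by rw [sub_mul, one_mul, d.T₁, sub_self]
  have p0 : d.p₁ * (1 - d.p₁) = 0 := by rw [mul_sub, mul_one, d.h₁, sub_self]
  have p0' : (1 - d.p₁) * d.p₁ = 0 := by rw [sub_mul, one_mul, d.h₁, sub_self]
  let w : IPair R (Fin 2) := ⟨vecMulVec ![a, d.T] ![a, (d.p₀ + a) * d.S],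
    vecMulVec ![0, d.p₁] ![0, d.p₁], by
      rw [vmv_mul, yx]
      congr 1
      funext i
      fin_cases i
      · exact e4
      · exact d.T₀, by
      rw [vmv_mul, ba]
      congr 1
      funext i
      fin_cases i
      · exact zero_mul _
      · exact d.h₁, by
      ext i k
      fin_cases i <;> fin_cases k
      · change R.q (a * a) = R.q (0 * 0)
        rw [map_mul, qa, zero_mul, zero_mul, map_zero]
      · change R.q (a * _) = R.q (0 * _)
        rw [map_mul, qa, zero_mul, zero_mul, map_zero]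
      · change R.q (_ * a) = R.q (_ * 0)
        rw [map_mul, qa, mul_zero, mul_zero, map_zero]
      · change R.q (d.T * ((d.p₀ + a) * d.S)) = R.q (d.p₁ * d.p₁)
        rw [t11, d.h₁, map_sub, sq, map_mul, qb, mul_zero, sub_zero]⟩
  have h1 : d.ind = w.del := by
    refine d.ind_eq w _ _ _ _ rfl yx rfl ba (fun i => ?_) fun i => ?_
    · fin_cases i
      · change R.q a = R.q (0 * _)
        rw [qa, zero_mul, map_zero]
      · change R.q d.T = R.q (d.p₁ * d.T)
        rw [d.T₁]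
    · fin_cases i
      · change R.q a = R.q (_ * 0)
        rw [qa, mul_zero, map_zero]
      · change R.q ((d.p₀ + a) * d.S) = R.q (d.S * d.p₁)
        rw [d.S₁, add_mul, d.S₀, map_add, map_mul, qa, zero_mul, add_zero]
  rw [h1]
  refine (del_orth w (idxPair d) !![0, 0; 0, 1 - d.p₁] ?_ ?_ ?_ ?_ ?_ ?_ ?_).symm
  · ext i k
    fin_cases i <;> fin_cases k <;> simp [Matrix.mul_apply, Fin.sum_univ_two, one_sub_idem d.h₁,
      mul_sub, sub_mul, d.h₁]
  · ext i k
    fin_cases i <;> fin_cases k <;>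
      simp [w, Matrix.mul_apply, Fin.sum_univ_two, vecMulVec_apply, mul_assoc, S0]
  · ext i k
    fin_cases i <;> fin_cases k <;>
      simp [w, Matrix.mul_apply, Fin.sum_univ_two, vecMulVec_apply, ← mul_assoc, T0]
  · ext i k
    fin_cases i <;> fin_cases k <;>
      simp [w, Matrix.mul_apply, Fin.sum_univ_two, vecMulVec_apply, mul_assoc, p0]
  · ext i k
    fin_cases i <;> fin_cases k <;>
      simp [w, Matrix.mul_apply, Fin.sum_univ_two, vecMulVec_apply, ← mul_assoc, p0']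
  · ext i k
    fin_cases i <;> fin_cases k
    · change (d.p₀ - d.S * d.T) ^ 2 + 0 = a * a + 0
      rw [← ha, sq]
    · change (d.p₀ - d.S * d.T) * (d.p₀ + (d.p₀ - d.S * d.T)) * d.S + 0 =
        a * ((d.p₀ + a) * d.S) + 0
      rw [← ha, mul_assoc]
    · change d.T * (d.p₀ - d.S * d.T) + 0 = d.T * a + 0
      rw [← ha]
    · change -(d.p₁ - d.T * d.S) ^ 2 + 1 = d.T * ((d.p₀ + a) * d.S) + (1 - d.p₁)
      rw [← hb, t11]
      abel
  · ext i k
    fin_cases i <;> fin_cases k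
    · change (0 : M) = 0 * 0 + 0
      simp
    · change (0 : M) = 0 * d.p₁ + 0
      simp
    · change (0 : M) = d.p₁ * 0 + 0
      simp
    · change (1 : M) = d.p₁ * d.p₁ + (1 - d.p₁)
      rw [d.h₁]
      abel

/-- The index class is `[A + D] - [D]`, where `A` is the image of the index matrix. -/
theorem ind_eq_cls (d : IDat R) (A : Matrix (Fin 2) (Fin 2) B)
    (hA : ∀ i k, A i k = R.j (indexMat d.p₀ d.p₁ d.T d.S i k)) :
    ∃ h : addDiag A * addDiag A = addDiag A,
      d.ind = KZero.cls (addDiag A) h - KZero.cls (diag01 B) (diag01_idem B) := by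
  have hq : (addDiag (indexMat d.p₀ d.p₁ d.T d.S)).map R.q =
      ((diag01 ℂ).map (algebraMap ℂ M)).map R.q := by rw [idx_q, diag01_map (algebraMap ℂ M)]
  let e : Matrix (Fin 2) (Fin 2) R.P := R.mk' (diag01 ℂ) _ hq
  have he : e * e = e := by
    refine R.mat_ext ?_ ?_
    · rw [Matrix.map_mul]
      exact idx_idem d
    · rw [Matrix.map_mul]
      exact diag01_idem ℂ
  have hL : e.map R.L = addDiag A := by
    ext i k
    change algebraMap ℂ B (diag01 ℂ i k) + R.j (indexMat d.p₀ d.p₁ d.T d.S i k + diag01 M i k -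
      algebraMap ℂ M (diag01 ℂ i k)) = A i k + diag01 B i k
    have h1 : algebraMap ℂ M (diag01 ℂ i k) = diag01 M i k :=
      congrFun (congrFun (diag01_map (algebraMap ℂ M)) i) k
    have h2 : algebraMap ℂ B (diag01 ℂ i k) = diag01 B i k :=
      congrFun (congrFun (diag01_map (algebraMap ℂ B)) i) k
    rw [h1, h2, add_sub_cancel_right, hA, add_comm]
  have hD : (R.scal (diag01 ℂ)).map R.L = diag01 B := by
    rw [Rel.scal_L, diag01_map (algebraMap ℂ B)]
  refine ⟨hL ▸ mapMat_idem R.L he, ?_⟩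
  rw [ind_eq_idxPair, (idxPair d).del_of_P e (R.scal (diag01 ℂ)) he
    (Rel.scal_idem (diag01_idem ℂ)) rfl (diag01_map (algebraMap ℂ M)) rfl]
  rw [cls_congr _ hL, cls_congr _ hD]

end Vale.Agent.P089GR
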