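import Vale.Agent.P089GR.K

/-! The difference construction for pairs of idempotent matrices which agree modulo an ideal. -/

set_option linter.unusedSectionVars false

namespace Vale.Agent.P089GR

open Vale.Agent.P089G Matrix Filter Topology

section Homotopy

attribute [local instance] Matrix.linftyOpNormedRing

/-- Homotopy invariance of `K_0` of a Banach ring. -/
theorem cls_eq_of_path {B : Type} [NormedRing B] [CompleteSpace B] {ι : Type} [Fintype ι]
    [DecidableEq ι] {T : Type} [TopologicalSpace T] [PreconnectedSpace T]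
    (e : T → Matrix ι ι B) (he : ∀ t, e t * e t = e t)
    (hc : ∀ i j, Continuous fun t => e t i j) (s t : T) :
    KZero.cls (e s) (he s) = KZero.cls (e t) (he t) := by
  have hcomplete := mat_complete (A := B) (ι := ι)
  have h : IsLocallyConstant fun t => KZero.cls (e t) (he t) := by
    rw [IsLocallyConstant.iff_eventually_eq]
    intro x
    have h1 : Tendsto (fun y => ‖2 * e x - 1‖ * ∑ i, ∑ j, ‖e x i j - e y i j‖) (𝓝 x) (𝓝 0) := by
      have h2 : Continuous fun y => ‖2 * e x - 1‖ * ∑ i, ∑ j, ‖e x i j - e y i j‖ := by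
        refine continuous_const.mul (continuous_finsetSum _ fun i _ =>
          continuous_finsetSum _ fun j _ => ?_)
        exact (continuous_const.sub (hc i j)).norm
      have h3 := h2.tendsto x
      simpa using h3
    filter_upwards [h1.eventually (gt_mem_nhds one_pos)] with y hy
    refine (cls_eq_of_mvn (he x) (he y) ?_).symm
    refine mvn_of_close (he x) (he y) (lt_of_le_of_lt ?_ hy)
    exact mul_le_mul_of_nonneg_left (mat_norm_le_sum (e x - e y)) (norm_nonneg _)
  exact h.apply_eq_of_preconnectedSpace s t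

end Homotopy

/-- An ideal (the kernel of `q`) of an algebra `M`, with a homomorphism `j` to an algebra `B`. -/
structure Rel (M Q B : Type) [Ring M] [Algebra ℂ M] [Ring Q] [Ring B] [Algebra ℂ B] where
  q : M →+* Q
  j : M → B
  j_add : ∀ a b, q a = 0 → q b = 0 → j (a + b) = j a + j b
  j_mul : ∀ a b, q a = 0 → q b = 0 → j (a * b) = j a * j b
  j_smul : ∀ (c : ℂ) (a : M), q a = 0 → j (c • a) = c • j a

section Alg

variable {M Q B : Type} [Ring M] [Algebra ℂ M] [Ring Q] [Ring B] [Algebra ℂ B] (R : Rel M Q B)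

theorem Rel.q_smul (c : ℂ) {a : M} (h : R.q a = 0) : R.q (c • a) = 0 := by
  rw [Algebra.smul_def, map_mul, h, mul_zero]

theorem Rel.j_zero : R.j 0 = 0 := by
  have h := R.j_smul 0 0 (map_zero _)
  rwa [zero_smul, zero_smul] at h

/-- Scalars plus the ideal. -/
def Rel.P : Subring (ℂ × M) :=
  RingHom.eqLocus (R.q.comp (RingHom.snd ℂ M)) (R.q.comp ((algebraMap ℂ M).comp (RingHom.fst ℂ M)))

theorem Rel.mem_P {x : ℂ × M} : x ∈ R.P ↔ R.q x.2 = R.q (algebraMap ℂ M x.1) := Iff.rfl

theorem Rel.q_sub (x : R.P) : R.q (x.1.2 - algebraMap ℂ M x.1.1) = 0 := by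
  rw [map_sub, R.mem_P.1 x.2, sub_self]

/-- The element of `M`. -/
def Rel.pr : R.P →+* M := (RingHom.snd ℂ M).comp R.P.subtype

/-- The scalar part. -/
def Rel.sc : R.P →+* ℂ := (RingHom.fst ℂ M).comp R.P.subtype

/-- The unital extension of `j`. -/
def Rel.L : R.P →+* B where
  toFun x := algebraMap ℂ B x.1.1 + R.j (x.1.2 - algebraMap ℂ M x.1.1)
  map_one' := by
    change algebraMap ℂ B 1 + R.j (1 - algebraMap ℂ M 1) = 1
    rw [map_one, map_one, sub_self, R.j_zero, add_zero]
  map_zero' := by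
    change algebraMap ℂ B 0 + R.j (0 - algebraMap ℂ M 0) = 0
    rw [map_zero, map_zero, sub_self, R.j_zero, add_zero]
  map_add' x y := by
    change algebraMap ℂ B (x.1.1 + y.1.1) + R.j (x.1.2 + y.1.2 - algebraMap ℂ M (x.1.1 + y.1.1)) =
      _
    have h : x.1.2 + y.1.2 - algebraMap ℂ M (x.1.1 + y.1.1) =
        (x.1.2 - algebraMap ℂ M x.1.1) + (y.1.2 - algebraMap ℂ M y.1.1) := by
      rw [map_add]; abel
    rw [h, R.j_add _ _ (R.q_sub x) (R.q_sub y), map_add]
    abel
  map_mul' x y := by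
    change algebraMap ℂ B (x.1.1 * y.1.1) + R.j (x.1.2 * y.1.2 - algebraMap ℂ M (x.1.1 * y.1.1)) =
      _
    set a := x.1.2 - algebraMap ℂ M x.1.1 with ha
    set b := y.1.2 - algebraMap ℂ M y.1.1 with hb
    have qa : R.q a = 0 := R.q_sub x
    have qb : R.q b = 0 := R.q_sub y
    have h : x.1.2 * y.1.2 - algebraMap ℂ M (x.1.1 * y.1.1) =
        (x.1.1 • b + y.1.1 • a) + a * b := by
      have h1 : x.1.2 = a + algebraMap ℂ M x.1.1 := by rw [ha]; abel
      have h2 : y.1.2 = b + algebraMap ℂ M y.1.1 := by rw [hb]; abel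
      rw [h1, h2, map_mul, Algebra.smul_def, Algebra.smul_def, Algebra.commutes y.1.1 a]
      noncomm_ring
    have qab : R.q (a * b) = 0 := by rw [map_mul, qa, zero_mul]
    have q1 : R.q (x.1.1 • b + y.1.1 • a) = 0 := by
      rw [map_add, R.q_smul _ qb, R.q_smul _ qa, add_zero]
    rw [h, R.j_add _ _ q1 qab, R.j_add _ _ (R.q_smul _ qb) (R.q_smul _ qa), R.j_mul _ _ qa qb,
      R.j_smul _ _ qa, R.j_smul _ _ qb, map_mul, Algebra.smul_def, Algebra.smul_def,
      Algebra.commutes y.1.1 (R.j a)]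
    noncomm_ring

theorem Rel.L_apply (x : R.P) :
    R.L x = algebraMap ℂ B (R.sc x) + R.j (R.pr x - algebraMap ℂ M (R.sc x)) := rfl

variable {ι κ μ : Type}

/-- A matrix over `R.P` from its two components. -/
def Rel.mk' (c : Matrix ι κ ℂ) (a : Matrix ι κ M)
    (h : a.map R.q = (c.map (algebraMap ℂ M)).map R.q) : Matrix ι κ R.P :=
  Matrix.of fun i k => ⟨(c i k, a i k), congrFun (congrFun h i) k⟩

theorem Rel.mk'_pr (c : Matrix ι κ ℂ) (a : Matrix ι κ M)
    (h : a.map R.q = (c.map (algebraMap ℂ M)).map R.q) : (R.mk' c a h).map R.pr = a := rfl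

theorem Rel.mk'_sc (c : Matrix ι κ ℂ) (a : Matrix ι κ M)
    (h : a.map R.q = (c.map (algebraMap ℂ M)).map R.q) : (R.mk' c a h).map R.sc = c := rfl

theorem Rel.mat_ext {x y : Matrix ι κ R.P} (h1 : x.map R.pr = y.map R.pr)
    (h2 : x.map R.sc = y.map R.sc) : x = y := by
  ext i k
  · exact congrFun (congrFun h2 i) k
  · exact congrFun (congrFun h1 i) k

theorem Rel.map_q_pr (x : Matrix ι κ R.P) :
    (x.map R.pr).map R.q = ((x.map R.sc).map (algebraMap ℂ M)).map R.q := by
  ext i k
  exact R.mem_P.1 (x i k).2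

end Alg

section Swap

variable {S S' : Type} [Ring S] [Ring S'] {ι : Type} [Fintype ι] [DecidableEq ι]

/-- The involution `[[f, 1 - f], [1 - f, f]]`. -/
def zM (f : Matrix ι ι S) : Matrix (ι ⊕ ι) (ι ⊕ ι) S := fromBlocks f (1 - f) (1 - f) f

theorem zM_mul_zM {f : Matrix ι ι S} (hf : f * f = f) : zM f * zM f = 1 := by
  unfold zM
  rw [fromBlocks_multiply, ← fromBlocks_one]
  have h1 : (1 - f) * (1 - f) = 1 - f := one_sub_idem hf
  have h2 : f * (1 - f) = 0 := by rw [mul_sub, mul_one, hf, sub_self]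
  have h3 : (1 - f) * f = 0 := by rw [sub_mul, one_mul, hf, sub_self]
  rw [h1, h2, h3, hf]
  simp

theorem zM_map (φ : S →+* S') (f : Matrix ι ι S) : (zM f).map φ = zM (f.map φ) := by
  unfold zM
  rw [fromBlocks_map, Matrix.map_sub _ (map_sub φ), Matrix.map_one _ (map_zero φ) (map_one φ)]

/-- The difference idempotent `z (e ⊕ (1 - f)) z`. -/
def dM (e f : Matrix ι ι S) : Matrix (ι ⊕ ι) (ι ⊕ ι) S :=
  zM f * fromBlocks e 0 0 (1 - f) * zM f

/-- The idempotent `1 ⊕ 0`. -/
def oM (ι : Type) [DecidableEq ι] (S : Type) [Ring S] : Matrix (ι ⊕ ι) (ι ⊕ ι) S :=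
  fromBlocks 1 0 0 0

theorem oM_idem : oM ι S * oM ι S = oM ι S := by
  unfold oM
  rw [fromBlocks_multiply]
  simp

theorem oM_map (φ : S →+* S') : (oM ι S).map φ = oM ι S' := by
  unfold oM
  rw [fromBlocks_map, Matrix.map_one _ (map_zero φ) (map_one φ)]
  simp only [Matrix.map_zero _ (map_zero φ)]

theorem dM_self {f : Matrix ι ι S} (hf : f * f = f) : dM f f = oM ι S := by
  unfold dM zM oM
  rw [fromBlocks_multiply, fromBlocks_multiply]
  have h1 : (1 - f) * (1 - f) = 1 - f := one_sub_idem hf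
  have h2 : f * (1 - f) = 0 := by rw [mul_sub, mul_one, hf, sub_self]
  have h3 : (1 - f) * f = 0 := by rw [sub_mul, one_mul, hf, sub_self]
  simp only [mul_zero, add_zero, zero_add, hf, h1, h2, h3, zero_mul]
  simp

theorem dM_map (φ : S →+* S') (e f : Matrix ι ι S) :
    (dM e f).map φ = dM (e.map φ) (f.map φ) := by
  unfold dM
  rw [Matrix.map_mul, Matrix.map_mul, zM_map, fromBlocks_map, Matrix.map_sub _ (map_sub φ),
    Matrix.map_one _ (map_zero φ) (map_one φ)]
  simp only [Matrix.map_zero _ (map_zero φ)]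

theorem blk_idem {e f : Matrix ι ι S} (he : e * e = e) (hf : f * f = f) :
    fromBlocks e 0 0 (1 - f) * fromBlocks e 0 0 (1 - f) = fromBlocks e 0 0 (1 - f) :=
  blocks_idem he (one_sub_idem hf)

theorem dM_idem {e f : Matrix ι ι S} (he : e * e = e) (hf : f * f = f) :
    dM e f * dM e f = dM e f := by
  unfold dM
  calc _ = zM f * fromBlocks e 0 0 (1 - f) * (zM f * zM f) * fromBlocks e 0 0 (1 - f) * zM f := by
        simp only [Matrix.mul_assoc]
    _ = _ := by
        rw [zM_mul_zM hf, mul_one, Matrix.mul_assoc (zM f), blk_idem he hf]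

theorem cls_one_sub {f : Matrix ι ι S} (hf : f * f = f) :
    KZero.cls (1 - f) (one_sub_idem hf) = KZero.cls (1 : Matrix ι ι S) (one_mul 1) - KZero.cls f hf := by
  have h2 : f * (1 - f) = 0 := by rw [mul_sub, mul_one, hf, sub_self]
  have h3 : (1 - f) * f = 0 := by rw [sub_mul, one_mul, hf, sub_self]
  have h4 : f + (1 - f) = 1 := by abel
  have h := cls_add hf (one_sub_idem hf) h2 h3 (by rw [h4, one_mul])
  rw [eq_sub_iff_add_eq, add_comm, ← h]
  exact cls_congr _ h4

theorem cls_oM : KZero.cls (oM ι S) oM_idem = KZero.cls (1 : Matrix ι ι S) (one_mul 1) := by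
  have h := cls_blocks (R := S) (e := (1 : Matrix ι ι S)) (f := (0 : Matrix ι ι S))
    (one_mul 1) (by simp)
  rw [cls_zero, add_zero] at h
  exact h

/-- The class of the difference idempotent. -/
theorem cls_dM {e f : Matrix ι ι S} (he : e * e = e) (hf : f * f = f) :
    KZero.cls (dM e f) (dM_idem he hf) - KZero.cls (oM ι S) oM_idem = KZero.cls e he - KZero.cls f hf := by
  have h1 : KZero.cls (fromBlocks e 0 0 (1 - f)) (blk_idem he hf) =
      KZero.cls (dM e f) (dM_idem he hf) :=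
    cls_conj _ _ (zM f) (zM f) (zM_mul_zM hf) (zM_mul_zM hf) rfl
  rw [← h1, cls_oM, cls_blocks he (one_sub_idem hf), cls_one_sub hf]
  abel

end Swap

end Vale.Agent.P089GR
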