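import Vale.Agent.P089GR.Dbl

/-! The difference class of a pair of idempotent matrices, and its invariance. -/

set_option linter.unusedSectionVars false

namespace Vale.Agent.P089GR

open Vale.Agent.P089G Matrix Filter Topology

section Blocks

variable {S : Type} [Ring S] {ι κ : Type} [Fintype ι] [DecidableEq ι] [Fintype κ] [DecidableEq κ]

theorem dM_eq (e f : Matrix ι ι S) : dM e f = fromBlocks (f * e * f + (1 - f) * (1 - f) * (1 - f))
    (f * e * (1 - f) + (1 - f) * (1 - f) * f) ((1 - f) * e * f + f * (1 - f) * (1 - f))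
    ((1 - f) * e * (1 - f) + f * (1 - f) * f) := by
  unfold dM zM
  rw [fromBlocks_multiply, fromBlocks_multiply]
  simp only [mul_zero, add_zero, zero_add]

theorem one_sub_blocks (f : Matrix ι ι S) (f' : Matrix κ κ S) :
    1 - fromBlocks f 0 0 f' = fromBlocks (1 - f) 0 0 (1 - f') := by
  rw [← fromBlocks_one, sub_eq_add_neg, fromBlocks_neg, fromBlocks_add]
  simp [sub_eq_add_neg]

theorem dM_blocks (e f : Matrix ι ι S) (e' f' : Matrix κ κ S) :
    dM (fromBlocks e 0 0 e') (fromBlocks f 0 0 f') =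
      (fromBlocks (dM e f) 0 0 (dM e' f')).submatrix (Equiv.sumSumSumComm ι κ ι κ)
        (Equiv.sumSumSumComm ι κ ι κ) := by
  rw [dM_eq, dM_eq, dM_eq, one_sub_blocks]
  simp only [fromBlocks_multiply, fromBlocks_add, Matrix.mul_zero, Matrix.zero_mul, add_zero,
    zero_add]
  ext i k
  rcases i with (i | i) | (i | i) <;> rcases k with (k | k) | (k | k) <;> rfl

theorem oM_blocks : oM (ι ⊕ κ) S =
    (fromBlocks (oM ι S) 0 0 (oM κ S)).submatrix (Equiv.sumSumSumComm ι κ ι κ)
      (Equiv.sumSumSumComm ι κ ι κ) := by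
  unfold oM
  rw [← fromBlocks_one]
  ext i k
  rcases i with (i | i) | (i | i) <;> rcases k with (k | k) | (k | k) <;> rfl

theorem dM_conj {e f G G' : Matrix ι ι S} (h1 : G * G' = 1) (h2 : G' * G = 1) :
    dM (G * e * G') (G * f * G') = fromBlocks G 0 0 G * dM e f * fromBlocks G' 0 0 G' := by
  have h3 : 1 - G * f * G' = G * (1 - f) * G' := by rw [mul_sub, sub_mul, mul_one, h1]
  have h4 : ∀ a b : Matrix ι ι S, G * a * G' * (G * b * G') = G * (a * b) * G' := by
    intro a b
    calc _ = G * a * (G' * G) * b * G' := by simp only [Matrix.mul_assoc]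
      _ = _ := by rw [h2, mul_one, Matrix.mul_assoc G]
  rw [dM_eq, dM_eq, h3, fromBlocks_multiply, fromBlocks_multiply]
  simp only [h4, Matrix.mul_zero, Matrix.zero_mul, add_zero, zero_add, mul_add, add_mul]

end Blocks

section Del

variable {M Q B : Type} [Ring M] [Algebra ℂ M] [Ring Q] [NormedRing B] [NormedAlgebra ℂ B]
  [CompleteSpace B] (R : Rel M Q B)
  {ι κ : Type} [Fintype ι] [DecidableEq ι] [Fintype κ] [DecidableEq κ]

/-- A pair of idempotent matrices which agree modulo the ideal. -/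
structure IPair (ι : Type) [Fintype ι] where
  e : Matrix ι ι M
  f : Matrix ι ι M
  he : e * e = e
  hf : f * f = f
  h : e.map R.q = f.map R.q

variable {R}

theorem IPair.dq (x : IPair R ι) :
    (dM x.e x.f).map R.q = ((oM ι ℂ).map (algebraMap ℂ M)).map R.q := by
  rw [dM_map, x.h, dM_self (mapMat_idem R.q x.hf), oM_map, oM_map]

/-- The difference idempotent over scalars plus ideal. -/
noncomputable def IPair.dP (x : IPair R ι) : Matrix (ι ⊕ ι) (ι ⊕ ι) R.P :=
  R.mk' (oM ι ℂ) (dM x.e x.f) x.dq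

theorem IPair.dP_pr (x : IPair R ι) : x.dP.map R.pr = dM x.e x.f := rfl

theorem IPair.dP_sc (x : IPair R ι) : x.dP.map R.sc = oM ι ℂ := rfl

theorem IPair.dP_idem (x : IPair R ι) : x.dP * x.dP = x.dP := by
  refine R.mat_ext ?_ ?_
  · rw [Matrix.map_mul, x.dP_pr, dM_idem x.he x.hf]
  · rw [Matrix.map_mul, x.dP_sc, oM_idem]

/-- The difference class. -/
noncomputable def IPair.del (x : IPair R ι) : KZero B :=
  KZero.cls (x.dP.map R.L) (mapMat_idem R.L x.dP_idem) - KZero.cls (oM ι B) oM_idem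

theorem IPair.del_congr {x y : IPair R ι} (h1 : x.e = y.e) (h2 : x.f = y.f) : x.del = y.del := by
  cases x
  cases y
  cases h1
  cases h2
  rfl

/-- The difference class when both idempotents are scalar modulo the ideal. -/
theorem IPair.del_of_P (x : IPair R ι) (e f : Matrix ι ι R.P) (he : e * e = e) (hf : f * f = f)
    (h1 : e.map R.pr = x.e) (h2 : f.map R.pr = x.f) (h3 : e.map R.sc = f.map R.sc) :
    x.del = KZero.cls (e.map R.L) (mapMat_idem R.L he) - KZero.cls (f.map R.L) (mapMat_idem R.L hf) := by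
  have h4 : x.dP = dM e f := by
    refine R.mat_ext ?_ ?_
    · rw [x.dP_pr, dM_map, h1, h2]
    · rw [x.dP_sc, dM_map, h3, dM_self (mapMat_idem R.sc hf)]
  rw [← cls_dM]
  unfold IPair.del
  congr 1
  exact cls_congr _ (by rw [h4, dM_map])

/-- Scalar matrices. -/
noncomputable def Rel.scal (R : Rel M Q B) {ι κ : Type} (c : Matrix ι κ ℂ) : Matrix ι κ R.P :=
  R.mk' c (c.map (algebraMap ℂ M)) rfl

theorem Rel.scal_L {ι κ : Type} (c : Matrix ι κ ℂ) :
    (R.scal c).map R.L = c.map (algebraMap ℂ B) := by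
  ext i k
  change algebraMap ℂ B (c i k) + R.j (algebraMap ℂ M (c i k) - algebraMap ℂ M (c i k)) = _
  rw [sub_self, R.j_zero, add_zero]
  rfl

theorem Rel.scal_idem {c : Matrix ι ι ℂ} (hc : c * c = c) : R.scal c * R.scal c = R.scal c := by
  refine R.mat_ext ?_ ?_
  · rw [Matrix.map_mul]
    exact mapMat_idem (algebraMap ℂ M) hc
  · rw [Matrix.map_mul]
    exact hc

theorem IPair.del_self (x : IPair R ι) (h : x.e = x.f) : x.del = 0 := by
  have h4 : x.dP = R.scal (oM ι ℂ) := by
    refine R.mat_ext ?_ rfl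
    rw [x.dP_pr, h, dM_self x.hf]
    exact (oM_map _).symm
  unfold IPair.del
  rw [sub_eq_zero]
  exact cls_congr _ (by rw [h4, Rel.scal_L, oM_map])

/-- The direct sum of two pairs. -/
def IPair.sum (x : IPair R ι) (y : IPair R κ) : IPair R (ι ⊕ κ) where
  e := fromBlocks x.e 0 0 y.e
  f := fromBlocks x.f 0 0 y.f
  he := blocks_idem x.he y.he
  hf := blocks_idem x.hf y.hf
  h := by rw [fromBlocks_map, fromBlocks_map, x.h, y.h]

theorem IPair.del_sum (x : IPair R ι) (y : IPair R κ) : (x.sum y).del = x.del + y.del := by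
  have h4 : (x.sum y).dP = (fromBlocks x.dP 0 0 y.dP).submatrix (Equiv.sumSumSumComm ι κ ι κ)
      (Equiv.sumSumSumComm ι κ ι κ) := by
    refine R.mat_ext ?_ ?_
    · rw [IPair.dP_pr, ← Matrix.submatrix_map, fromBlocks_map, x.dP_pr, y.dP_pr]
      simp only [Matrix.map_zero _ (map_zero R.pr)]
      exact dM_blocks _ _ _ _
    · rw [IPair.dP_sc, ← Matrix.submatrix_map, fromBlocks_map, x.dP_sc, y.dP_sc]
      simp only [Matrix.map_zero _ (map_zero R.sc)]
      exact oM_blocks
  have h5 : KZero.cls ((x.sum y).dP.map R.L) (mapMat_idem R.L (x.sum y).dP_idem) =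
      KZero.cls (x.dP.map R.L) (mapMat_idem R.L x.dP_idem) +
        KZero.cls (y.dP.map R.L) (mapMat_idem R.L y.dP_idem) := by
    rw [← cls_blocks, ← cls_submatrix _ (Equiv.sumSumSumComm ι κ ι κ)]
    refine cls_congr _ ?_
    rw [h4, ← Matrix.submatrix_map, fromBlocks_map]
    simp only [Matrix.map_zero _ (map_zero R.L)]
  have h6 : KZero.cls (oM (ι ⊕ κ) B) oM_idem = KZero.cls (oM ι B) oM_idem + KZero.cls (oM κ B) oM_idem := by
    rw [← cls_blocks, ← cls_submatrix _ (Equiv.sumSumSumComm ι κ ι κ)]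
    exact cls_congr _ oM_blocks
  unfold IPair.del
  rw [h5, h6]
  abel

/-- Conjugation of the first idempotent by a matrix which is the identity modulo the ideal. -/
theorem IPair.del_conj_left (x y : IPair R ι) {G G' : Matrix ι ι M} (h1 : G * G' = 1)
    (h2 : G' * G = 1) (hG : G.map R.q = 1) (he : y.e = G * x.e * G') (hf : y.f = x.f) :
    y.del = x.del := by
  have hG' : G'.map R.q = 1 := by
    have h3 : G.map R.q * G'.map R.q = 1 := by
      rw [← Matrix.map_mul, h1, Matrix.map_one _ (map_zero _) (map_one _)]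
    rwa [hG, one_mul] at h3
  have hz := zM_mul_zM x.hf
  have key : ∀ A : Matrix ι ι M, A.map R.q = 1 → (zM x.f * fromBlocks A 0 0 1 * zM x.f).map R.q =
      ((1 : Matrix (ι ⊕ ι) (ι ⊕ ι) ℂ).map (algebraMap ℂ M)).map R.q := by
    intro A hA
    rw [Matrix.map_mul, Matrix.map_mul, fromBlocks_map, hA,
      Matrix.map_one _ (map_zero R.q) (map_one R.q), Matrix.map_zero _ (map_zero R.q),
      fromBlocks_one, mul_one, ← Matrix.map_mul, hz,
      Matrix.map_one _ (map_zero (algebraMap ℂ M)) (map_one (algebraMap ℂ M))]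
  have mulz : ∀ A A' : Matrix (ι ⊕ ι) (ι ⊕ ι) M, zM x.f * A * zM x.f * (zM x.f * A' * zM x.f) =
      zM x.f * (A * A') * zM x.f := by
    intro A A'
    calc _ = zM x.f * A * (zM x.f * zM x.f) * A' * zM x.f := by simp only [Matrix.mul_assoc]
      _ = _ := by rw [hz, mul_one, Matrix.mul_assoc (zM x.f)]
  set U := R.mk' 1 _ (key G hG) with hU
  set U' := R.mk' 1 _ (key G' hG') with hU'
  have inv : ∀ A A' : Matrix ι ι M, ∀ (hA : A.map R.q = 1) (hA' : A'.map R.q = 1), A * A' = 1 →
      R.mk' 1 _ (key A hA) * R.mk' 1 _ (key A' hA') = 1 := by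
    intro A A' hA hA' h
    refine R.mat_ext ?_ ?_
    · rw [Matrix.map_mul, R.mk'_pr, R.mk'_pr, mulz, fromBlocks_multiply,
        Matrix.map_one _ (map_zero R.pr) (map_one R.pr)]
      simp only [h, Matrix.mul_zero, Matrix.zero_mul, add_zero, zero_add, mul_one, fromBlocks_one,
        hz]
    · rw [Matrix.map_mul, R.mk'_sc, R.mk'_sc, mul_one,
        Matrix.map_one _ (map_zero R.sc) (map_one R.sc)]
  have h5 : U * x.dP * U' = y.dP := by
    refine R.mat_ext ?_ ?_
    · rw [Matrix.map_mul, Matrix.map_mul, hU, hU', R.mk'_pr, R.mk'_pr, x.dP_pr, y.dP_pr, he, hf]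
      unfold dM
      rw [mulz, mulz, fromBlocks_multiply, fromBlocks_multiply]
      simp only [Matrix.mul_zero, Matrix.zero_mul, add_zero, zero_add, mul_one, one_mul]
    · rw [Matrix.map_mul, Matrix.map_mul, hU, hU', R.mk'_sc, R.mk'_sc, x.dP_sc, y.dP_sc,
        one_mul, mul_one]
  unfold IPair.del
  congr 1
  refine (cls_conj _ _ (U.map R.L) (U'.map R.L) ?_ ?_ ?_).symm
  · rw [← Matrix.map_mul, inv G G' hG hG' h1, Matrix.map_one _ (map_zero _) (map_one _)]
  · rw [← Matrix.map_mul, inv G' G hG' hG h2, Matrix.map_one _ (map_zero _) (map_one _)]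
  · rw [← Matrix.map_mul, ← Matrix.map_mul, h5]

/-- Conjugates by multipliers which commute with the scalar part. -/
theorem exists_ad (g : Matrix ι ι R.P) (hg : g * g = g) {u u' : Matrix ι ι M} (h1 : u * u' = 1)
    (h2 : u' * u = 1)
    (hc : u * (g.map R.sc).map (algebraMap ℂ M) = (g.map R.sc).map (algebraMap ℂ M) * u) :
    ∃ g' : Matrix ι ι R.P, g' * g' = g' ∧ g'.map R.sc = g.map R.sc ∧
      g'.map R.pr = u * g.map R.pr * u' := by
  have h3 : (u * g.map R.pr * u').map R.q = ((g.map R.sc).map (algebraMap ℂ M)).map R.q := by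
    rw [Matrix.map_mul, Matrix.map_mul, R.map_q_pr, ← Matrix.map_mul, ← Matrix.map_mul, hc,
      Matrix.mul_assoc, h1, mul_one]
  refine ⟨R.mk' _ _ h3, R.mat_ext ?_ ?_, rfl, rfl⟩
  · rw [Matrix.map_mul, R.mk'_pr]
    calc _ = u * g.map R.pr * (u' * u) * g.map R.pr * u' := by simp only [Matrix.mul_assoc]
      _ = _ := by rw [h2, mul_one, Matrix.mul_assoc u, mapMat_idem R.pr hg]
  · rw [Matrix.map_mul, R.mk'_sc]
    exact mapMat_idem R.sc hg

/-- Conjugation by an elementary multiplier. -/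
theorem cls_ad_elem (g g' : Matrix ι ι R.P) (hg : g * g = g) (hg' : g' * g' = g')
    {N : Matrix ι ι M} (hN : N * N = 0)
    (hc : N * (g.map R.sc).map (algebraMap ℂ M) = (g.map R.sc).map (algebraMap ℂ M) * N)
    (h1 : g'.map R.sc = g.map R.sc) (h2 : g'.map R.pr = (1 + N) * g.map R.pr * (1 - N)) :
    KZero.cls (g'.map R.L) (mapMat_idem R.L hg') = KZero.cls (g.map R.L) (mapMat_idem R.L hg) := by
  set c := (g.map R.sc).map (algebraMap ℂ M) with hcdef
  have hNs : ∀ s : ℂ, (s • N) * (s • N) = 0 := by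
    intro s
    rw [Matrix.smul_mul, Matrix.mul_smul, hN, smul_zero, smul_zero]
  have hex : ∀ s : ℂ, ∃ g' : Matrix ι ι R.P, g' * g' = g' ∧ g'.map R.sc = g.map R.sc ∧
      g'.map R.pr = (1 + s • N) * g.map R.pr * (1 - s • N) := by
    intro s
    refine exists_ad g hg ?_ ?_ ?_
    · rw [mul_sub, add_mul, add_mul, hNs]; simp
    · rw [sub_mul, mul_add, mul_add, hNs]; simp
    · rw [← hcdef, add_mul, mul_add, Matrix.smul_mul, Matrix.mul_smul, hc, one_mul, mul_one]
  choose p hp1 hp2 hp3 using hex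
  set n := g.map R.pr - c with hn
  have qn : n.map R.q = 0 := by
    rw [hn, Matrix.map_sub _ (map_sub R.q), R.map_q_pr, sub_self]
  have qa : (N * n - n * N).map R.q = 0 := by
    rw [Matrix.map_sub _ (map_sub R.q), Matrix.map_mul, Matrix.map_mul, qn, mul_zero, zero_mul,
      sub_self]
  have qb : (N * n * N).map R.q = 0 := by
    rw [Matrix.map_mul, Matrix.map_mul, qn, mul_zero, zero_mul]
  have h3 : ∀ s : ℂ, (p s).map R.pr - c = n + s • (N * n - n * N) + (-(s * s)) • (N * n * N) := by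
    intro s
    have h4 : g.map R.pr = n + c := by rw [hn]; abel
    have h5 : N * c * N = 0 := by rw [hc, Matrix.mul_assoc, hN, mul_zero]
    rw [hp3, h4]
    simp only [mul_add, add_mul, mul_sub, one_mul, mul_one, Matrix.smul_mul, Matrix.mul_smul,
      smul_sub, hc, smul_smul, neg_smul]
    rw [← hc, h5, smul_zero]
    abel
  have h6 : ∀ s i k, (p s).map R.L i k = algebraMap ℂ B ((g.map R.sc) i k) +
      (R.j (n i k) + s • R.j ((N * n - n * N) i k) + (-(s * s)) • R.j ((N * n * N) i k)) := by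
    intro s i k
    have e1 : R.sc (p s i k) = (g.map R.sc) i k := congrFun (congrFun (hp2 s) i) k
    have e2 : R.pr (p s i k) - algebraMap ℂ M ((g.map R.sc) i k) =
        n i k + s • (N * n - n * N) i k + (-(s * s)) • (N * n * N) i k :=
      congrFun (congrFun (h3 s) i) k
    have q1 : R.q (n i k) = 0 := congrFun (congrFun qn i) k
    have q2 : R.q ((N * n - n * N) i k) = 0 := congrFun (congrFun qa i) k
    have q3 : R.q ((N * n * N) i k) = 0 := congrFun (congrFun qb i) k
    rw [Matrix.map_apply, R.L_apply, e1, e2, R.j_add _ _ (by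
      rw [map_add, q1, R.q_smul _ q2, add_zero]) (R.q_smul _ q3), R.j_add _ _ q1 (R.q_smul _ q2),
      R.j_smul _ _ q2, R.j_smul _ _ q3]
  have h7 := cls_eq_of_path (fun s : ℂ => (p s).map R.L) (fun s => mapMat_idem R.L (hp1 s))
    (fun i k => by
      simp only [h6]
      fun_prop) 1 0
  have e1 : p 1 = g' := R.mat_ext (by rw [hp3, h2, one_smul]) (by rw [hp2, h1])
  have e0 : p 0 = g := R.mat_ext (by rw [hp3, zero_smul, add_zero, sub_zero, one_mul, mul_one])
    (hp2 0)
  exact (cls_congr _ (by rw [e1])).trans (h7.trans (cls_congr _ (by rw [e0])))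

/-- Conjugation by an invertible multiplier. -/
theorem cls_ad (g g' : Matrix ι ι R.P) (hg : g * g = g) (hg' : g' * g' = g')
    {W W' : Matrix ι ι M} (hW : W * W' = 1) (hW' : W' * W = 1)
    (hc : W * (g.map R.sc).map (algebraMap ℂ M) = (g.map R.sc).map (algebraMap ℂ M) * W)
    (h1 : g'.map R.sc = g.map R.sc) (h2 : g'.map R.pr = W * g.map R.pr * W') :
    KZero.cls (g'.map R.L) (mapMat_idem R.L hg') = KZero.cls (g.map R.L) (mapMat_idem R.L hg) := by
  set c₀ := g.map R.sc with hc₀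
  set c := c₀.map (algebraMap ℂ M) with hcdef
  have hc₀i : c₀ * c₀ = c₀ := mapMat_idem R.sc hg
  have hc' : W' * c = c * W' := by
    calc W' * c = W' * c * (W * W') := by rw [hW, mul_one]
      _ = W' * (W * c) * W' := by rw [hc]; simp only [Matrix.mul_assoc]
      _ = c * W' := by rw [← Matrix.mul_assoc, hW', one_mul]
  set N₁ : Matrix (ι ⊕ ι) (ι ⊕ ι) M := fromBlocks 0 W 0 0 with hN₁
  set N₂ : Matrix (ι ⊕ ι) (ι ⊕ ι) M := fromBlocks 0 0 (-W') 0 with hN₂
  have n1 : N₁ * N₁ = 0 := by rw [hN₁, fromBlocks_multiply]; simp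
  have n2 : N₂ * N₂ = 0 := by rw [hN₂, fromBlocks_multiply]; simp
  have c1 : N₁ * fromBlocks c 0 0 c = fromBlocks c 0 0 c * N₁ := by
    rw [hN₁, fromBlocks_multiply, fromBlocks_multiply]; simp [hc]
  have c2 : N₂ * fromBlocks c 0 0 c = fromBlocks c 0 0 c * N₂ := by
    rw [hN₂, fromBlocks_multiply, fromBlocks_multiply]; simp [hc']
  have step : ∀ (h : Matrix (ι ⊕ ι) (ι ⊕ ι) R.P) (hh : h * h = h) (N : Matrix (ι ⊕ ι) (ι ⊕ ι) M),
      N * N = 0 → N * fromBlocks c 0 0 c = fromBlocks c 0 0 c * N →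
      h.map R.sc = fromBlocks c₀ 0 0 c₀ →
      ∃ (h' : Matrix (ι ⊕ ι) (ι ⊕ ι) R.P) (hh' : h' * h' = h'),
        h'.map R.sc = fromBlocks c₀ 0 0 c₀ ∧ h'.map R.pr = (1 + N) * h.map R.pr * (1 - N) ∧
        KZero.cls (h'.map R.L) (mapMat_idem R.L hh') = KZero.cls (h.map R.L) (mapMat_idem R.L hh) := by
    intro h hh N hN hNc hs
    have hs' : (h.map R.sc).map (algebraMap ℂ M) = fromBlocks c 0 0 c := by
      rw [hs, fromBlocks_map, Matrix.map_zero _ (map_zero _)]
    obtain ⟨h', a1, a2, a3⟩ := exists_ad h hh (u := 1 + N) (u' := 1 - N)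
      (by rw [mul_sub, add_mul, add_mul, hN]; simp) (by rw [sub_mul, mul_add, mul_add, hN]; simp)
      (by rw [hs', add_mul, mul_add, hNc, one_mul, mul_one])
    exact ⟨h', a1, a2.trans hs, a3, cls_ad_elem h h' hh a1 hN (by rw [hs', hNc]) a2 a3⟩
  have hsi := Rel.scal_idem (R := R) hc₀i
  obtain ⟨k₁, i₁, s₁, p₁, e₁⟩ := step (fromBlocks (R.scal c₀) 0 0 g) (blocks_idem hsi hg) N₁ n1 c1
    (by rw [fromBlocks_map, Matrix.map_zero _ (map_zero _)]; rfl)
  obtain ⟨k₂, i₂, s₂, p₂, e₂⟩ := step k₁ i₁ N₂ n2 c2 s₁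
  obtain ⟨k₃, i₃, s₃, p₃, e₃⟩ := step k₂ i₂ N₁ n1 c1 s₂
  have hk : k₃ = fromBlocks g' 0 0 (R.scal c₀) := by
    refine R.mat_ext ?_ ?_
    · have a1 : (1 + N₁) * (1 + N₂) * (1 + N₁) = fromBlocks 0 W (-W') 0 := by
        rw [hN₁, hN₂, ← fromBlocks_one, fromBlocks_add, fromBlocks_add, fromBlocks_multiply,
          fromBlocks_multiply]
        simp [hW, hW']
      have a2 : (1 - N₁) * (1 - N₂) * (1 - N₁) = fromBlocks 0 (-W) W' 0 := by
        rw [hN₁, hN₂, ← fromBlocks_one, sub_eq_add_neg, sub_eq_add_neg, fromBlocks_neg,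
          fromBlocks_neg, fromBlocks_add, fromBlocks_add, fromBlocks_multiply,
          fromBlocks_multiply]
        simp [hW, hW']
      have a3 : (fromBlocks (R.scal c₀) 0 0 g).map R.pr = fromBlocks c 0 0 (g.map R.pr) := by
        rw [fromBlocks_map, Matrix.map_zero _ (map_zero _)]; rfl
      have a4 : (fromBlocks g' 0 0 (R.scal c₀)).map R.pr =
          fromBlocks (W * g.map R.pr * W') 0 0 c := by
        rw [fromBlocks_map, Matrix.map_zero _ (map_zero _), h2]; rfl
      have a5 : W' * c * W = c := by rw [hc', Matrix.mul_assoc, hW', mul_one]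
      rw [p₃, p₂, p₁, a3, a4]
      calc _ = ((1 + N₁) * (1 + N₂) * (1 + N₁)) * fromBlocks c 0 0 (g.map R.pr) *
          ((1 - N₁) * (1 - N₂) * (1 - N₁)) := by simp only [Matrix.mul_assoc]
        _ = _ := by
          rw [a1, a2, fromBlocks_multiply, fromBlocks_multiply]
          simp [a5]
    · rw [s₃, fromBlocks_map, Matrix.map_zero _ (map_zero _), h1]; rfl
  have b1 : KZero.cls (k₃.map R.L) (mapMat_idem R.L i₃) =
      KZero.cls (g'.map R.L) (mapMat_idem R.L hg') +
        KZero.cls ((R.scal c₀).map R.L) (mapMat_idem R.L hsi) := by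
    rw [← cls_blocks]
    exact cls_congr _ (by rw [hk, fromBlocks_map, Matrix.map_zero _ (map_zero _)])
  have b2 : KZero.cls ((fromBlocks (R.scal c₀) 0 0 g).map R.L)
      (mapMat_idem R.L (blocks_idem hsi hg)) =
      KZero.cls ((R.scal c₀).map R.L) (mapMat_idem R.L hsi) +
        KZero.cls (g.map R.L) (mapMat_idem R.L hg) := by
    rw [← cls_blocks]
    exact cls_congr _ (by rw [fromBlocks_map, Matrix.map_zero _ (map_zero _)])
  have b3 := b1.symm.trans (e₃.trans (e₂.trans (e₁.trans b2)))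
  rw [add_comm] at b3
  exact add_left_cancel b3

/-- Conjugation of both idempotents. -/
theorem IPair.del_conj_both (x y : IPair R ι) {G G' : Matrix ι ι M} (h1 : G * G' = 1)
    (h2 : G' * G = 1) (he : y.e = G * x.e * G') (hf : y.f = G * x.f * G') :
    y.del = x.del := by
  unfold IPair.del
  congr 1
  refine cls_ad x.dP y.dP x.dP_idem y.dP_idem (W := fromBlocks G 0 0 G)
    (W' := fromBlocks G' 0 0 G') ?_ ?_ ?_ rfl ?_
  · rw [fromBlocks_multiply]; simp [h1]
  · rw [fromBlocks_multiply]; simp [h2]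
  · rw [x.dP_sc, oM_map]
    unfold oM
    rw [fromBlocks_multiply, fromBlocks_multiply]
    simp
  · rw [x.dP_pr, y.dP_pr, he, hf, dM_conj h1 h2]

/-- Conjugation by a pair of invertible matrices which agree modulo the ideal. -/
theorem IPair.del_conj (x y : IPair R ι) {G G' K K' : Matrix ι ι M} (h1 : G * G' = 1)
    (h2 : G' * G = 1) (h3 : K * K' = 1) (h4 : K' * K = 1) (h : G.map R.q = K.map R.q)
    (he : y.e = G * x.e * G') (hf : y.f = K * x.f * K') : y.del = x.del := by
  have hm : ∀ a : Matrix ι ι M, a * a = a → K * a * K' * (K * a * K') = K * a * K' := by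
    intro a ha
    calc _ = K * a * (K' * K) * a * K' := by simp only [Matrix.mul_assoc]
      _ = _ := by rw [h4, mul_one, Matrix.mul_assoc K, ha]
  let w : IPair R ι := ⟨K * x.e * K', K * x.f * K', hm _ x.he, hm _ x.hf, by
    rw [Matrix.map_mul, Matrix.map_mul, Matrix.map_mul, Matrix.map_mul, x.h]⟩
  rw [← IPair.del_conj_both x w h3 h4 rfl rfl]
  refine IPair.del_conj_left w y (G := G * K') (G' := K * G') ?_ ?_ ?_ ?_ hf
  · rw [Matrix.mul_assoc, ← Matrix.mul_assoc K', h4, one_mul, h1]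
  · rw [Matrix.mul_assoc, ← Matrix.mul_assoc G', h2, one_mul, h3]
  · rw [Matrix.map_mul, h, ← Matrix.map_mul, h3, Matrix.map_one _ (map_zero _) (map_one _)]
  · rw [he]
    change _ = G * K' * (K * x.e * K') * (K * G')
    calc _ = G * (K' * K) * x.e * (K' * K) * G' := by rw [h4, mul_one, mul_one]
      _ = _ := by simp only [Matrix.mul_assoc]

/-- The zero pair. -/
def IPair.zero (R : Rel M Q B) (ι : Type) [Fintype ι] : IPair R ι :=
  ⟨0, 0, by simp, by simp, rfl⟩

theorem swap_conj {S : Type} [Ring S] {e : Matrix ι ι S} {e' : Matrix κ κ S} (he : e * e = e)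
    (he' : e' * e' = e') {u : Matrix ι κ S} {v : Matrix κ ι S} (h1 : u * v = e)
    (h2 : v * u = e') :
    fromBlocks (1 - e) (e * u) (e' * v) (1 - e') * fromBlocks (1 - e) (e * u) (e' * v) (1 - e') =
      1 ∧ fromBlocks (1 - e) (e * u) (e' * v) (1 - e') * fromBlocks e 0 0 0 *
      fromBlocks (1 - e) (e * u) (e' * v) (1 - e') = fromBlocks 0 0 0 e' := by
  have a1 : u * e' = e * u := by rw [← h1, ← h2, Matrix.mul_assoc]
  have a2 : v * e = e' * v := by rw [← h1, ← h2, Matrix.mul_assoc]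
  have b1 : e * u * (e' * v) = e := by
    rw [Matrix.mul_assoc, ← Matrix.mul_assoc u, a1, Matrix.mul_assoc e u v, h1, he, he]
  have b2 : e' * v * (e * u) = e' := by
    rw [Matrix.mul_assoc, ← Matrix.mul_assoc v, a2, Matrix.mul_assoc e' v u, h2, he', he']
  have b3 : (1 - e) * (e * u) = 0 := by
    rw [← Matrix.mul_assoc, sub_mul, one_mul, he, sub_self, Matrix.zero_mul]
  have b4 : e * u * (1 - e') = 0 := by
    rw [← a1, Matrix.mul_assoc, mul_sub, mul_one, he', sub_self, Matrix.mul_zero]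
  have b5 : e' * v * (1 - e) = 0 := by
    rw [← a2, Matrix.mul_assoc, mul_sub, mul_one, he, sub_self, Matrix.mul_zero]
  have b6 : (1 - e') * (e' * v) = 0 := by
    rw [← Matrix.mul_assoc, sub_mul, one_mul, he', sub_self, Matrix.zero_mul]
  have b7 : (1 - e) * e = 0 := by rw [sub_mul, one_mul, he, sub_self]
  have b8 : e' * v * e = e' * v := by rw [Matrix.mul_assoc, a2, ← Matrix.mul_assoc, he']
  constructor
  · rw [fromBlocks_multiply, one_sub_idem he, one_sub_idem he', b1, b2, b3, b4, b5, b6,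
      ← fromBlocks_one]
    simp
  · rw [fromBlocks_multiply, fromBlocks_multiply]
    simp only [b7, b8, b5, b2, Matrix.mul_zero, Matrix.zero_mul, add_zero]

/-- Invariance under Murray-von Neumann equivalence of pairs. -/
theorem IPair.del_mvn (x : IPair R ι) (y : IPair R κ) (u₁ u₂ : Matrix ι κ M)
    (v₁ v₂ : Matrix κ ι M) (h1 : u₁ * v₁ = x.e) (h2 : v₁ * u₁ = y.e) (h3 : u₂ * v₂ = x.f)
    (h4 : v₂ * u₂ = y.f) (hu : u₁.map R.q = u₂.map R.q) (hv : v₁.map R.q = v₂.map R.q) :
    x.del = y.del := by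
  obtain ⟨a1, a2⟩ := swap_conj x.he y.he h1 h2
  obtain ⟨b1, b2⟩ := swap_conj x.hf y.hf h3 h4
  have h5 := IPair.del_conj (x.sum (IPair.zero R κ)) ((IPair.zero R ι).sum y) a1 a1 b1 b1
    (by
      rw [fromBlocks_map, fromBlocks_map, Matrix.map_sub _ (map_sub R.q),
        Matrix.map_sub _ (map_sub R.q), Matrix.map_sub _ (map_sub R.q),
        Matrix.map_sub _ (map_sub R.q), Matrix.map_mul, Matrix.map_mul, Matrix.map_mul,
        Matrix.map_mul, x.h, y.h, hu, hv]) a2.symm b2.symm
  rw [IPair.del_sum, IPair.del_sum, IPair.del_self (IPair.zero R κ) rfl,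
    IPair.del_self (IPair.zero R ι) rfl, add_zero, zero_add] at h5
  exact h5.symm

end Del

end Vale.Agent.P089GR
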