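import Vale.Agent.P089GM.KDefs
import Vale.Agent.P089Z.Cyc
import Mathlib.Data.Matrix.ColumnRowPartitioned
import Mathlib.Analysis.Matrix.Normed
import Mathlib.Topology.LocallyConstant.Basic
import Mathlib.Tactic.NoncommRing

/-! P089: basic rules for classes of idempotent matrices. -/

set_option linter.unusedSectionVars false

namespace Vale.Agent.P089GR

open Matrix Vale.Agent.P089G

section Pres

theorem of_sim {S : Type*} {E : S → S → Prop} {D : S → S → S → Prop} {a b : S}
    (h : E a b) : Pres.of E D a = Pres.of E D b := by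
  rw [← sub_eq_zero]
  exact (QuotientAddGroup.eq_zero_iff _).2 (AddSubgroup.subset_closure (Or.inl ⟨a, b, h, rfl⟩))

theorem of_sum {S : Type*} {E : S → S → Prop} {D : S → S → S → Prop} {a b c : S}
    (h : D a b c) : Pres.of E D c = Pres.of E D a + Pres.of E D b := by
  rw [← sub_eq_zero, ← sub_sub]
  exact (QuotientAddGroup.eq_zero_iff _).2
    (AddSubgroup.subset_closure (Or.inr ⟨a, b, c, h, rfl⟩))

end Pres

section Rules

variable {R S : Type} [Ring R] [Ring S] {ι κ : Type} [Fintype ι] [Fintype κ]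

theorem blocks_idem {e : Matrix ι ι R} {f : Matrix κ κ R} (he : e * e = e) (hf : f * f = f) :
    Matrix.fromBlocks e 0 0 f * Matrix.fromBlocks e 0 0 f = Matrix.fromBlocks e 0 0 f := by
  simp [Matrix.fromBlocks_multiply, he, hf]

theorem mapMat_idem (φ : R →+* S) {e : Matrix ι ι R} (he : e * e = e) :
    e.map φ * e.map φ = e.map φ := by
  rw [← Matrix.map_mul, he]

theorem one_sub_idem {A : Type} [Ring A] {Q : A} (hQ : Q * Q = Q) :
    (1 - Q) * (1 - Q) = 1 - Q := by
  rw [mul_sub, sub_mul, sub_mul, hQ, one_mul, mul_one, one_mul, sub_self, sub_zero]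

theorem cls_eq_of_mvn {e : Matrix ι ι R} {f : Matrix κ κ R} (he : e * e = e)
    (hf : f * f = f) (h : ∃ (x : Matrix ι κ R) (y : Matrix κ ι R), x * y = e ∧ y * x = f) :
    KZero.cls e he = KZero.cls f hf := by
  obtain ⟨x, y, h1, h2⟩ := h
  refine of_sim ⟨x.submatrix (Fintype.equivFin ι).symm (Fintype.equivFin κ).symm,
    y.submatrix (Fintype.equivFin κ).symm (Fintype.equivFin ι).symm, ?_, ?_⟩
  · rw [submatrix_mul_equiv, h1]
  · rw [submatrix_mul_equiv, h2]

theorem cls_congr {e f : Matrix ι ι R} (he : e * e = e) (h : e = f) :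
    KZero.cls e he = KZero.cls f (h ▸ he) := by
  subst h
  rfl

theorem cls_blocks {e : Matrix ι ι R} {f : Matrix κ κ R} (he : e * e = e)
    (hf : f * f = f) : KZero.cls (Matrix.fromBlocks e 0 0 f) (blocks_idem he hf) =
      KZero.cls e he + KZero.cls f hf := by
  refine of_sum ⟨(Fintype.equivFin (ι ⊕ κ)).symm.trans
    (Equiv.sumCongr (Fintype.equivFin ι) (Fintype.equivFin κ)), ?_⟩
  ext i k
  simp only [submatrix_apply, Equiv.coe_trans, Function.comp_apply]
  rcases (Fintype.equivFin (ι ⊕ κ)).symm i with a | a <;>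
    rcases (Fintype.equivFin (ι ⊕ κ)).symm k with c | c <;> simp

theorem cls_zero : KZero.cls (0 : Matrix ι ι R) (by simp) = 0 := by
  have h0 : (0 : Matrix ι ι R) * 0 = 0 := by simp
  have h := cls_blocks h0 h0
  rw [cls_eq_of_mvn (blocks_idem h0 h0) h0 ⟨0, 0, by simp, by simp⟩] at h
  exact left_eq_add.1 h

theorem cls_add {e f : Matrix ι ι R} (he : e * e = e) (hf : f * f = f)
    (hef : e * f = 0) (hfe : f * e = 0) (h : (e + f) * (e + f) = e + f) :
    KZero.cls (e + f) h = KZero.cls e he + KZero.cls f hf := by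
  rw [← cls_blocks he hf]
  apply cls_eq_of_mvn
  refine ⟨Matrix.fromCols e f, Matrix.fromRows e f, ?_, ?_⟩
  · rw [Matrix.fromCols_mul_fromRows, he, hf]
  · rw [Matrix.fromRows_mul_fromCols, he, hf, hef, hfe]

theorem cls_submatrix {e : Matrix ι ι R} (he : e * e = e) (σ : κ ≃ ι) :
    KZero.cls (e.submatrix σ σ) (by rw [submatrix_mul_equiv, he]) = KZero.cls e he := by
  classical
  refine cls_eq_of_mvn _ _ ⟨e.submatrix σ id, e.submatrix id σ, ?_, ?_⟩
  · have := submatrix_mul_equiv e e (σ : κ → ι) (Equiv.refl ι) (σ : κ → ι)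
    rw [he] at this
    exact this
  · have := submatrix_mul_equiv e e (id : ι → ι) σ (id : ι → ι)
    rw [he] at this
    simpa using this

theorem cls_conj [DecidableEq ι] {e f : Matrix ι ι R} (he : e * e = e) (hf : f * f = f)
    (u v : Matrix ι ι R) (_huv : u * v = 1) (hvu : v * u = 1) (h : u * e * v = f) :
    KZero.cls e he = KZero.cls f hf := by
  apply cls_eq_of_mvn
  refine ⟨e * v, u * e, ?_, ?_⟩
  · rw [Matrix.mul_assoc, ← Matrix.mul_assoc v, hvu, Matrix.one_mul, he]
  · rw [Matrix.mul_assoc, ← Matrix.mul_assoc e, he, ← h, Matrix.mul_assoc]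

end Rules

/-- Close idempotents are equivalent. -/
theorem mvn_of_close {A : Type} [NormedRing A] [CompleteSpace A] {e f : A}
    (he : e * e = e) (hf : f * f = f) (h : ‖2 * e - 1‖ * ‖e - f‖ < 1) :
    ∃ x y : A, x * y = e ∧ y * x = f := by
  have ht : ‖(2 * e - 1) * (e - f)‖ < 1 := (norm_mul_le _ _).trans_lt h
  set u : Aˣ := Units.oneSub ((2 * e - 1) * (e - f)) ht with hu
  have hz : (u : A) = e * f + (1 - e) * (1 - f) := by
    rw [hu, Units.val_oneSub]
    have h1 : (2 * e - 1) * (e - f) = 2 * (e * e) - e - 2 * (e * f) + f := by noncomm_ring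
    rw [h1, he]
    noncomm_ring
  have h1 : e * u = e * f := by
    rw [hz]
    have : e * (e * f + (1 - e) * (1 - f)) = (e * e) * f + (e - e * e) * (1 - f) := by
      noncomm_ring
    rw [this, he, sub_self, zero_mul, add_zero]
  have h2 : (u : A) * f = e * f := by
    rw [hz]
    have : (e * f + (1 - e) * (1 - f)) * f = e * (f * f) + (1 - e) * (f - f * f) := by
      noncomm_ring
    rw [this, hf, sub_self, mul_zero, add_zero]
  refine ⟨e * u, (↑u⁻¹ : A) * e, ?_, ?_⟩
  · rw [mul_assoc, ← mul_assoc (u : A), Units.mul_inv, one_mul, he]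
  · rw [mul_assoc, ← mul_assoc e, he, h1, ← h2, ← mul_assoc, Units.inv_mul, one_mul]

section MatNorm

attribute [local instance] Matrix.linftyOpNormedRing

variable {A : Type} [NormedRing A] {ι : Type} [Fintype ι] [DecidableEq ι]

theorem mat_norm_entry_le (M : Matrix ι ι A) (i j : ι) : ‖M i j‖ ≤ ‖M‖ := by
  have h : ‖M‖ = ((Finset.univ : Finset ι).sup fun i : ι => ∑ j : ι, ‖M i j‖₊ : NNReal) :=
    linfty_opNorm_def M
  rw [h, ← coe_nnnorm, NNReal.coe_le_coe]
  refine le_trans ?_ (Finset.le_sup (f := fun i : ι => ∑ j : ι, ‖M i j‖₊) (Finset.mem_univ i))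
  exact Finset.single_le_sum (f := fun j => ‖M i j‖₊) (fun _ _ => zero_le)
    (Finset.mem_univ j)

theorem mat_norm_le_sum (M : Matrix ι ι A) : ‖M‖ ≤ ∑ i, ∑ j, ‖M i j‖ := by
  have h : ‖M‖ = ((Finset.univ : Finset ι).sup fun i : ι => ∑ j : ι, ‖M i j‖₊ : NNReal) :=
    linfty_opNorm_def M
  have h2 : ((Finset.univ : Finset ι).sup fun i : ι => ∑ j : ι, ‖M i j‖₊ : NNReal) ≤
      ∑ i, ∑ j, ‖M i j‖₊ := by
    refine Finset.sup_le fun i _ => ?_
    exact Finset.single_le_sum (f := fun i => ∑ j : ι, ‖M i j‖₊) (fun _ _ => zero_le)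
      (Finset.mem_univ i)
  rw [h]
  calc (((Finset.univ : Finset ι).sup fun i : ι => ∑ j : ι, ‖M i j‖₊ : NNReal) : ℝ)
      ≤ ((∑ i, ∑ j, ‖M i j‖₊ : NNReal) : ℝ) := NNReal.coe_le_coe.2 h2
    _ = ∑ i, ∑ j, ‖M i j‖ := by push_cast; rfl

theorem mat_complete [CompleteSpace A] : @CompleteSpace (Matrix ι ι A)
    (@PseudoMetricSpace.toUniformSpace _ SeminormedRing.toPseudoMetricSpace) := by
  refine Metric.complete_of_cauchySeq_tendsto fun u hu => ?_
  have h : ∀ i j, ∃ a, Filter.Tendsto (fun n => u n i j) Filter.atTop (nhds a) := by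
    intro i j
    apply cauchySeq_tendsto_of_complete
    rw [Metric.cauchySeq_iff] at hu ⊢
    intro ε hε
    obtain ⟨N, hN⟩ := hu ε hε
    refine ⟨N, fun m hm n hn => ?_⟩
    refine lt_of_le_of_lt ?_ (hN m hm n hn)
    rw [dist_eq_norm, dist_eq_norm]
    exact mat_norm_entry_le (u m - u n) i j
  choose a ha using h
  refine ⟨Matrix.of a, ?_⟩
  rw [tendsto_iff_norm_sub_tendsto_zero]
  have h1 : Filter.Tendsto (fun n => ∑ i, ∑ j, ‖u n i j - a i j‖) Filter.atTop (nhds 0) := by
    have h2 : (0 : ℝ) = ∑ _i : ι, ∑ _j : ι, 0 := by simp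
    rw [h2]
    refine tendsto_finsetSum _ fun i _ => tendsto_finsetSum _ fun j _ => ?_
    exact tendsto_iff_norm_sub_tendsto_zero.1 (ha i j)
  refine squeeze_zero (fun _ => norm_nonneg _) (fun n => ?_) h1
  exact mat_norm_le_sum (u n - Matrix.of a)

end MatNorm

end Vale.Agent.P089GR
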